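import Vale.Agent.P253Z.Spec
import Vale.Agent.P210.R2.H53.RDefs
import Mathlib.RingTheory.Complex
import Mathlib.RingTheory.Norm.Transitivity
import Mathlib.MeasureTheory.Measure.Haar.Unique

/-!
# P253Z, block BG: the two volumes are proportional
-/

open scoped Manifold ContDiff Bundle ENNReal NNReal Topology ComplexConjugate ComplexOrder
open Bundle IsManifold MeasureTheory Set Vale.Agent.P253.Mfd
open Vale.Agent.P272.K (Cm Chart)
open Vale.Agent.P210.R2

noncomputable section

namespace Vale.Agent.P253Z.BGa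

variable {n : ℕ}

/-- the real part of a sesquilinear form -/
def sq (H : Matrix (Fin n) (Fin n) ℂ) (u v : Cm n) : ℝ := (∑ j, ∑ k, H j k * (u j * conj (v k))).re

theorem sq_symm {H : Matrix (Fin n) (Fin n) ℂ} (hH : H.IsHermitian) (u v : Cm n) :
    sq H u v = sq H v u := by
  rw [sq, sq, ← Complex.conj_re, Finset.sum_comm]
  simp only [map_sum, map_mul, Complex.conj_conj]
  refine congrArg _ (Finset.sum_congr rfl fun j _ => Finset.sum_congr rfl fun k _ => ?_)
  rw [← hH.apply j k, mul_comm (v j)]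
  rfl

theorem sq_add (H : Matrix (Fin n) (Fin n) ℂ) (u v : Cm n) :
    sq H (u + v) (u + v) = sq H u u + sq H u v + sq H v u + sq H v v := by
  simp only [sq, ← Complex.add_re, ← Finset.sum_add_distrib, Pi.add_apply, map_add]
  refine congrArg _ (Finset.sum_congr rfl fun j _ => Finset.sum_congr rfl fun k _ => ?_)
  ring

theorem polar {B : Cm n →L[ℝ] Cm n →L[ℝ] ℝ} {H : Matrix (Fin n) (Fin n) ℂ} (hH : H.IsHermitian)
    (hs : ∀ u v, B u v = B v u) (hq : ∀ v, B v v = sq H v v) (u v : Cm n) : B u v = sq H u v := by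
  have h1 := hq (u + v)
  rw [sq_add, map_add, map_add, add_apply, add_apply, hq, hq, hs v u, sq_symm hH v u] at h1
  linarith

/-- the standard form in the first variable -/
def st (v : Cm n) : Cm n →ₗ[ℝ] ℝ where
  toFun u := (∑ k, u k * conj (v k)).re
  map_add' a b := by simp only [Pi.add_apply, add_mul, Finset.sum_add_distrib, Complex.add_re]
  map_smul' r a := by
    simp only [Pi.smul_apply, smul_mul_assoc, ← Finset.smul_sum, Complex.smul_re, RingHom.id_apply]

theorem dens_eq (n : ℕ) : ∃ c : ℝ, 0 ≤ c ∧ ∀ (G : Cm n → Cm n →L[ℝ] Cm n →L[ℝ] ℝ) (z : Cm n)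
    (H : Matrix (Fin n) (Fin n) ℂ), H.PosDef → (∀ u v, G z u v = sq H u v) →
      H53.dens G z = c * H.det.re := by
  obtain ⟨b, hb⟩ : ∃ b, b = Module.finBasis ℝ (Cm n) := ⟨_, rfl⟩
  refine ⟨√(Matrix.det (Matrix.of fun i j => st (b j) (b i))), Real.sqrt_nonneg _,
    fun G z H hH hG => ?_⟩
  obtain ⟨T, hT⟩ : ∃ T, T = (Matrix.toLin' H.transpose).restrictScalars ℝ := ⟨_, rfl⟩
  have h1 : ∀ u v, G z u v = st v (T u) := fun u v => by
    rw [hG, hT, sq, Finset.sum_comm]
    refine congrArg _ (Finset.sum_congr rfl fun k _ => ?_)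
    rw [LinearMap.restrictScalars_apply, Matrix.toLin'_apply, Matrix.mulVec, dotProduct,
      Finset.sum_mul]
    exact Finset.sum_congr rfl fun j _ => (mul_assoc _ _ _).symm
  have h2 : (Matrix.of fun i j => G z (b i) (b j)) =
      (LinearMap.toMatrix b b T).transpose * Matrix.of fun i j => st (b j) (b i) := by
    ext i j
    rw [Matrix.of_apply, h1, ← b.sum_repr (T (b i)), map_sum, Matrix.mul_apply]
    refine Finset.sum_congr rfl fun k _ => ?_
    rw [map_smul, Matrix.transpose_apply, LinearMap.toMatrix_apply]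
    rfl
  have h3 := Complex.pos_iff.1 hH.det_pos
  have h4 : LinearMap.det T = H.det.re ^ 2 := by
    rw [hT, LinearMap.det_restrictScalars, Algebra.norm_complex_apply, LinearMap.det_toLin',
      Matrix.det_transpose, Complex.normSq_apply, ← h3.2]
    ring
  rw [H53.dens, ← hb, h2, Matrix.det_mul, Matrix.det_transpose, LinearMap.det_toMatrix, h4,
    Real.sqrt_mul (sq_nonneg _), Real.sqrt_sq h3.1.le, mul_comm]

variable {M : Type} [MetricSpace M] [ChartedSpace (Cm n) M]
  [IsManifold 𝓘(ℂ, Cm n) 1 M] [IsManifold 𝓘(ℝ, Cm n) ∞ M]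
  [RiemannianBundle (fun x : M => TangentSpace 𝓘(ℝ, Cm n) x)]
  [MeasurableSpace M] [BorelSpace M]

theorem vol_eq [SecondCountableTopology M] {μ ν : Measure M} (b : B1b n M) (hμ : IsVol n μ)
    (hν : H53.IsVol (Cm n) ν) : ∃ c : ℝ≥0, ν = c • μ := by
  obtain ⟨c₁, hc₁, h1⟩ := dens_eq n
  obtain ⟨c₂, h2⟩ : ∃ c : ℝ≥0, (Module.finBasis ℝ (Cm n)).addHaar = c • volume :=
    ⟨_, Measure.isAddLeftInvariant_eq_smul _ _⟩
  obtain ⟨s, hs, hc⟩ := TopologicalSpace.countable_cover_nhds
    (f := fun x : M => (chartAt (Cm n) x).source) fun x => chart_source_mem_nhds _ x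
  refine ⟨c₂ * c₁.toNNReal, Measure.ext_of_biUnion_eq_univ hs hc fun x _ => ?_⟩
  ext t ht
  have he : Hc (chartAt (Cm n) x) := chart_mem_maximalAtlas x
  have he' : chartAt (Cm n) x ∈ maximalAtlas 𝓘(ℝ, Cm n) ∞ M := chart_mem_maximalAtlas x
  generalize chartAt (Cm n) x = e at he he'
  have hm' := ht.inter e.open_source.measurableSet
  have hf : Measurable ((t ∩ e.source).indicator (1 : M → ℝ≥0∞)) := measurable_one.indicator hm'
  have h0 : ∀ y ∉ e.source, (t ∩ e.source).indicator (1 : M → ℝ≥0∞) y = 0 := fun y hy =>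
    indicator_of_notMem (fun h => hy h.2) _
  have h3 := hμ e he _ hf h0
  have h4 := hν e he' _ hf h0
  rw [lintegral_indicator_one hm'] at h3 h4
  rw [Measure.restrict_apply ht, Measure.restrict_apply ht, Measure.smul_apply, h3, h4, h2,
    Measure.restrict_smul, lintegral_smul_measure, mul_smul]
  congr 1
  rw [ENNReal.smul_def, smul_eq_mul, ← lintegral_const_mul' _ _ ENNReal.coe_ne_top]
  refine setLIntegral_congr_fun e.open_target.measurableSet fun z hz => ?_
  have h6 : ∀ u v, H53.chartG e z u v = H53.chartG e z v u := fun u v => by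
    rw [H53.chartG_apply, H53.chartG_apply, H53.chartMetric, H53.chartMetric]
    exact real_inner_comm _ _
  have h5 := h1 (H53.chartG e) z _ (b.wpos e he z hz)
    (polar (b.wpos e he z hz).1 h6 (b.quad e he z hz))
  simp only [h5]
  rw [ENNReal.ofReal_mul hc₁, mul_left_comm]
  rfl

end Vale.Agent.P253Z.BGa
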