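import Vale.Agent.P253Z.Spec
import Vale.Agent.P210.R2.H973.Ricf
import Vale.Agent.P210.R2.H329.PtLin
import Vale.Agent.P210.R2.H53.RDefs

/-!
# P253Z, block BG: the Ricci curvature is nonnegative
-/

open scoped Manifold ContDiff Bundle ENNReal Topology
open Bundle IsManifold Set Vale.Agent.P253.Mfd
open Vale.Agent.P272.K (Cm Chart)
open Vale.Agent.P210.R2

noncomputable section

namespace Vale.Agent.P253Z.BGa

variable {n : ℕ}

/-- multiplication by `i` -/
def mulI (n : ℕ) : Cm n ≃ₗ[ℝ] Cm n where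
  toFun v := Complex.I • v
  invFun v := (-Complex.I) • v
  map_add' := smul_add _
  map_smul' r v := smul_comm _ _ _
  left_inv v := by simp [smul_smul]
  right_inv v := by simp [smul_smul]

theorem ric_nonneg {E : Type} [NormedAddCommGroup E] [NormedSpace ℝ E] [FiniteDimensional ℝ E]
    {G : E → E →L[ℝ] E →L[ℝ] ℝ} {U : Set E} {z : E} (h : H53.LocalRiem G U) (hz : z ∈ U)
    (J : E ≃ₗ[ℝ] E) (hI : ∀ v w, G z (J v) (J w) = G z v w)
    (hp : ∀ u v, u ≠ 0 → v ≠ 0 → 0 < H53.secG G z u v + H53.secG G z u (J v)) (v : E) :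
    0 ≤ H973.ric G z v := by
  obtain ⟨b, hb⟩ := H973.exists_onb (G z) (h.symm z hz) (h.pos z hz)
  have hb' : H973.ONB (G z) (b.map J) := fun i j => (hI _ _).trans (hb i j)
  have h1 := H973.ric_eq hb v
  have h2 := H973.ric_eq hb' v
  by_cases hv : v = 0
  · rw [← h1, hv]
    refine Finset.sum_nonneg fun i _ => ?_
    rw [H329.secG_symm h hz, ← H973.Qf_self, ← H973.Qb_apply, map_zero]
  · have h3 : 0 ≤ ∑ i, (H53.secG G z (b i) v + H53.secG G z (b.map J i) v) := by
      refine Finset.sum_nonneg fun i _ => ?_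
      rw [H329.secG_symm h hz (b i), H329.secG_symm h hz (b.map J i)]
      exact (hp v (b i) hv (b.ne_zero i)).le
    rw [Finset.sum_add_distrib, h1, h2] at h3
    linarith

variable {M : Type} [MetricSpace M] [ChartedSpace (Cm n) M]
  [IsManifold 𝓘(ℂ, Cm n) 1 M] [IsManifold 𝓘(ℝ, Cm n) ∞ M]
  [RiemannianBundle (fun x : M => TangentSpace 𝓘(ℝ, Cm n) x)]
  [IsContMDiffRiemannianBundle 𝓘(ℝ, Cm n) ∞ (Cm n) (fun x : M => TangentSpace 𝓘(ℝ, Cm n) x)]

theorem ricGE (hK : IsKahler (Cm n) M) (hp : ∀ x : M, PosBisectionalAt (Cm n) x) {K : ℝ}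
    (hK0 : 0 ≤ K) : H53.RicGE (Cm n) M (-K) := by
  intro e he z hz
  have hΓ : H53.IsChristoffel e z fun u v => H53.chris (H53.chartG e) z u v := fun u v w => by
    rw [H53.fderiv_chartMetric he hz, H53.fderiv_chartMetric he hz, H53.fderiv_chartMetric he hz]
    exact H53.chris_spec_of_pos (fun v hv => H53.chartG_pos he hz v hv) u v w
  refine ⟨_, hΓ, fun b hb v => ?_⟩
  have h1 : H973.ONB (H53.chartG e z) b := hb
  have h2 : ∑ i, H53.sectNum e z (fun u v => H53.chris (H53.chartG e) z u v) (b i) v =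
      H973.ric (H53.chartG e) z v := by
    rw [← H973.ric_eq h1]
    exact Finset.sum_congr rfl fun i _ => H53.sectNum_eq he hz hΓ _ _
  have h3 : 0 ≤ H53.chartMetric e z v v := real_inner_self_nonneg
  obtain ⟨x, hx⟩ : ∃ x, x = e.symm z := ⟨_, rfl⟩
  have hx' : x ∈ e.source := hx ▸ e.map_target hz
  have he' : chartAt (Cm n) x ∈ maximalAtlas 𝓘(ℝ, Cm n) ∞ M := chart_mem_maximalAtlas x
  have hc : chartAt (Cm n) x ∈ maximalAtlas 𝓘(ℂ, Cm n) 1 M := chart_mem_maximalAtlas x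
  have h4 := H973.ric_chart he he' hx' (mem_chart_source _ x) v
  rw [show e x = z from hx ▸ e.right_inv hz] at h4
  obtain ⟨Γ, h5, h6⟩ := hp x _ hc (mem_chart_source _ x)
  have hz' := mem_chart_target (Cm n) x
  have h7 := ric_nonneg (H973.localRiem_chartG he') hz' (mulI n) (hK _ hc _ hz').1
    (fun u w hu hw => by
      rw [← H53.sectNum_eq he' hz' h5, ← H53.sectNum_eq he' hz' h5]
      exact h6 u w hu hw) (fderiv ℝ (chartAt (Cm n) x ∘ e.symm) z v)
  rw [h2, h4]
  nlinarith [mul_nonneg hK0 h3]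

end Vale.Agent.P253Z.BGa
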